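import Vale.Agent.P363.CWmp
import Vale.Agent.P363.CWmpQ
import Vale.Agent.P363.CSob
import Vale.Agent.P363.CPoin
import Vale.Agent.P363.CAbs
import Vale.Agent.P363.CPh
import Vale.Agent.P363.CLsc
import Vale.Agent.P363.CVec3
import Vale.Agent.P363.CO3
import Vale.Agent.P363.CMv
import Vale.Agent.P363.CMvL

/-! P363, block C: everything. -/

open MeasureTheory Set Metric Filter Topology
open scoped RealInnerProductSpace

namespace Vale.Agent.P363

noncomputable section



end

end Vale.Agent.P363
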