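import Vale.Agent.P363.Stmt

/-! P363: working definitions (calculus on lines, forms, barriers, block interfaces). -/

open MeasureTheory Set Metric Filter Topology
open scoped RealInnerProductSpace

namespace Vale.Agent.P363

noncomputable section

/-! ### calculus -/

def e (k : Fin 3) : E3 := EuclideanSpace.single k 1

/-- Reflection in the plane `x 2 = 0`. -/
def sg (x : E3) : E3 := x - (2 * x 2) • e 2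

/-- `g` is the gradient of `f` on `U`, in the sense of absolute continuity on almost all lines. -/
structure LD (U : Set E3) (f : E3 → ℝ) (g : E3 → E3) : Prop where
  mf : AEStronglyMeasurable f (volume.restrict U)
  mg : AEStronglyMeasurable g (volume.restrict U)
  line : ∀ k : Fin 3, ∀ᵐ x : E3, ∃ F : ℝ → ℝ,
    (∀ᵐ t : ℝ, x + t • e k ∈ U → f (x + t • e k) = F t) ∧
    (∀ a b : ℝ, (∀ t ∈ uIcc a b, x + t • e k ∈ U) → AbsolutelyContinuousOnInterval F a b) ∧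
    (∀ᵐ t : ℝ, x + t • e k ∈ U → HasDerivAt F (g (x + t • e k) k) t)

structure H1 (f : E3 → ℝ) (g : E3 → E3) : Prop where
  ld : LD univ f g
  l2 : MemLp f 2 volume
  l2g : MemLp g 2 volume

def Loc1 (U : Set E3) (f : E3 → ℝ) : Prop := ∀ K, IsCompact K → K ⊆ U → IntegrableOn f K

def Loc2 {α : Type} [NormedAddCommGroup α] (U : Set E3) (f : E3 → α) : Prop :=
  ∀ K, IsCompact K → K ⊆ U → MemLp f 2 (volume.restrict K)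

/-- Locally bounded. -/
def LocB (U : Set E3) (f : E3 → ℝ) : Prop :=
  ∀ K, IsCompact K → K ⊆ U → ∃ M, ∀ᵐ x : E3, x ∈ K → |f x| ≤ M

/-- Locally bounded below by a positive constant. -/
def LocP (U : Set E3) (f : E3 → ℝ) : Prop :=
  ∀ K, IsCompact K → K ⊆ U → ∃ c, 0 < c ∧ ∀ᵐ x : E3, x ∈ K → c ≤ f x

/-- Locally `H¹`. -/
structure L1 (U : Set E3) (w : E3 → ℝ) (gw : E3 → E3) : Prop where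
  ld : LD U w gw
  l2 : Loc2 U w
  l2g : Loc2 U gw

/-- Test functions: bounded `H¹` functions with compact support in `U`. -/
structure Tst (U : Set E3) (ψ : E3 → ℝ) (p : E3 → E3) : Prop where
  ld : LD univ ψ p
  l2g : MemLp p 2 volume
  bd : ∃ M, ∀ᵐ x : E3, |ψ x| ≤ M
  cpt : ∃ K, IsCompact K ∧ K ⊆ U ∧ ∀ x, x ∉ K → ψ x = 0 ∧ p x = 0

/-- `-(1/2) Δ w + R ≤ 0` weakly on `U`. -/
structure Sub (U : Set E3) (w : E3 → ℝ) (gw : E3 → E3) (R : E3 → ℝ) : Prop where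
  l1 : L1 U w gw
  li : Loc1 U R
  ineq : ∀ ψ p, Tst U ψ p → (∀ᵐ x : E3, 0 ≤ ψ x) →
    ∫ x, ((1 / 2) * ⟪gw x, p x⟫ + R x * ψ x) ≤ 0

/-- The same, tested with `w ψ`: formally `-(1/2) w Δ w + R ≤ 0`. -/
structure SubQ (U : Set E3) (w : E3 → ℝ) (gw : E3 → E3) (R : E3 → ℝ) : Prop where
  l1 : L1 U w gw
  li : Loc1 U R
  ineq : ∀ ψ p, Tst U ψ p → (∀ᵐ x : E3, 0 ≤ ψ x) → MemLp (fun x => w x • p x) 2 volume →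
    ∫ x, ((1 / 2) * (‖gw x‖ ^ 2 * ψ x + w x * ⟪gw x, p x⟫) + R x * ψ x) ≤ 0

/-- `f` has trace zero on the plane `x 2 = 0` from above (inside `U`). -/
def TZ (U : Set E3) (f : E3 → ℝ) : Prop :=
  ∀ᵐ x : E3, x - x 2 • e 2 ∈ U → ∀ ε > 0, ∃ s > 0, ∀ᵐ t : ℝ, 0 < x 2 + t → x 2 + t < s →
    |f (x + t • e 2)| ≤ ε

/-- `B` is `C²` on the open set `U` with gradient `gB` and Laplacian `l`. -/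
structure C2 (U : Set E3) (B : E3 → ℝ) (gB : E3 → E3) (l : E3 → ℝ) : Prop where
  op : IsOpen U
  d1 : ∀ x ∈ U, HasFDerivAt B (innerSL ℝ (gB x)) x
  d2 : ∃ H : E3 → E3 →L[ℝ] E3, ContinuousOn H U ∧
    ∀ x ∈ U, HasFDerivAt gB (H x) x ∧ l x = ∑ k, H x (e k) k

/-- The open upper half space. -/
def Hp : Set E3 := {x | 0 < x 2}

/-- An open box. -/
def Box (a b : Fin 3 → ℝ) : Set E3 := {x | ∀ k, a k < x k ∧ x k < b k}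

/-- The heat kernel of `(1/2) Δ`. -/
def hk (t : ℝ) (x : E3) : ℝ := (2 * Real.pi * t) ^ (-(3 / 2) : ℝ) * Real.exp (-‖x‖ ^ 2 / (2 * t))

section vec

variable {Y : Type} [MeasurableSpace Y]

/-- `H¹` in the first variable, with values in `L²(ν)`. -/
structure HV (ν : Measure Y) (F : E3 × Y → ℝ) (G : E3 × Y → E3) : Prop where
  l2 : MemLp F 2 (volume.prod ν)
  l2g : MemLp G 2 (volume.prod ν)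
  ld : ∀ᵐ y ∂ν, LD univ (fun x => F (x, y)) (fun x => G (x, y))

/-- Local version. -/
structure LV (U : Set E3) (ν : Measure Y) (F : E3 × Y → ℝ) (G : E3 × Y → E3) : Prop where
  l2 : ∀ K, IsCompact K → K ⊆ U → MemLp F 2 ((volume.restrict K).prod ν)
  l2g : ∀ K, IsCompact K → K ⊆ U → MemLp G 2 ((volume.restrict K).prod ν)
  ld : ∀ᵐ y ∂ν, LD U (fun x => F (x, y)) (fun x => G (x, y))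

def nrm (ν : Measure Y) (F : E3 × Y → ℝ) (x : E3) : ℝ := √(∫ y, F (x, y) ^ 2 ∂ν)

def gnr (ν : Measure Y) (F : E3 × Y → ℝ) (G : E3 × Y → E3) (x : E3) : E3 :=
  (nrm ν F x)⁻¹ • ∫ y, F (x, y) • G (x, y) ∂ν

end vec

/-! ### two and three particles -/

abbrev E6 := E3 × E3

abbrev E9 := E3 × E6

def p12 (w : E9) : E9 := (w.2.1, (w.1, w.2.2))

def p13 (w : E9) : E9 := (w.2.2, (w.2.1, w.1))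

def sg6 (w : E6) : E6 := (sg w.1, sg w.2)

def sg9 (w : E9) : E9 := (sg w.1, sg6 w.2)

structure H2 (f : E6 → ℝ) (g1 g2 : E6 → E3) : Prop where
  h1 : HV volume f g1
  h2 : HV volume (fun w => f w.swap) (fun w => g2 w.swap)

structure H3 (f : E9 → ℝ) (g1 g2 g3 : E9 → E3) : Prop where
  h1 : HV volume f g1
  h2 : HV volume (fun w => f (p12 w)) (fun w => g2 (p12 w))
  h3 : HV volume (fun w => f (p13 w)) (fun w => g3 (p13 w))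

structure O2 where
  f : E6 → ℝ
  g1 : E6 → E3
  g2 : E6 → E3
  h : H2 f g1 g2

structure O3 where
  f : E9 → ℝ
  g1 : E9 → E3
  g2 : E9 → E3
  g3 : E9 → E3
  h : H3 f g1 g2 g3

/-- The upper nucleus. -/
def nA (L : ℝ) : E3 := L • e 2

def rA (L : ℝ) (x : E3) : ℝ := ‖x - nA L‖

def rB (L : ℝ) (x : E3) : ℝ := ‖x + nA L‖

def V (L : ℝ) (x : E3) : ℝ := -((rA L x)⁻¹ + (rB L x)⁻¹)

/-- Space without the nuclei. -/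
def D (L : ℝ) : Set E3 := {x | x ≠ nA L ∧ x ≠ -nA L}

def Ext (ρ : ℝ) : Set E3 := {x | ρ < ‖x‖}

def Ext2 (L ρ : ℝ) : Set E3 := {x | ρ < rA L x ∧ ρ < rB L x}

def Slab (ρ : ℝ) : Set E3 := {x | ρ < ‖x‖ ∧ 0 < x 2 ∧ x 2 < 1}

/-- The compact bulk region. -/
def Blk (L ρ s : ℝ) : Set E3 := {x | ‖x‖ ≤ ρ ∧ s ≤ rA L x ∧ s ≤ rB L x}

def W2 (L lam : ℝ) (w : E6) : ℝ := V L w.1 + V L w.2 + lam * ‖w.1 - w.2‖⁻¹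

def Mx (x : E3) (w : E6) : ℝ := ‖x - w.1‖⁻¹ + ‖x - w.2‖⁻¹

def W3 (L lam : ℝ) (w : E9) : ℝ := V L w.1 + W2 L lam w.2 + lam * Mx w.1 w.2

def q1 (L : ℝ) (f : E3 → ℝ) (g : E3 → E3) (f' : E3 → ℝ) (g' : E3 → E3) : ℝ :=
  ∫ x, ((1 / 2) * ⟪g x, g' x⟫ + V L x * f x * f' x)

def ip2 (a b : O2) : ℝ := ∫ w, a.f w * b.f w

def k2 (a : O2) : ℝ := ∫ w, (‖a.g1 w‖ ^ 2 + ‖a.g2 w‖ ^ 2)

def q2 (L lam : ℝ) (a b : O2) : ℝ :=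
  ∫ w, ((1 / 2) * (⟪a.g1 w, b.g1 w⟫ + ⟪a.g2 w, b.g2 w⟫) + W2 L lam w * a.f w * b.f w)

def ip3 (a b : O3) : ℝ := ∫ w, a.f w * b.f w

def q3 (L lam : ℝ) (a b : O3) : ℝ :=
  ∫ w, ((1 / 2) * (⟪a.g1 w, b.g1 w⟫ + ⟪a.g2 w, b.g2 w⟫ + ⟪a.g3 w, b.g3 w⟫) +
    W3 L lam w * a.f w * b.f w)

/-- Square root of the one-body density of the state built from `F`. -/
def N3 (F : E9 → ℝ) (x : E3) : ℝ :=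
  √(2 * (∫ y, F (x, y) ^ 2) + ∫ y, F (p13 (x, y)) ^ 2)

/-! ### explicit barriers -/

def ph (L k c A s : ℝ) : ℝ :=
  -k * s + (1 / k - 1) * Real.log s + c / k * Real.log (1 + s / L) - A * (2 / √s + L / (s + L))

def ph1 (L k c A s : ℝ) : ℝ :=
  -k + (1 / k - 1) / s + c / k / (s + L) + A * (1 / (s * √s) + L / (s + L) ^ 2)

def ph2 (L k c A s : ℝ) : ℝ :=
  -(1 / k - 1) / s ^ 2 - c / k / (s + L) ^ 2 - A * (3 / (2 * s ^ 2 * √s) + 2 * L / (s + L) ^ 3)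

def fb (L k c A s : ℝ) : ℝ := Real.exp (ph L k c A s)

def Ye (L k A : ℝ) (x : E3) : ℝ := fb L k 1 A (rA L x) + fb L k 1 A (rB L x)

def Uo (L k c : ℝ) (x : E3) : ℝ := fb L k c 0 (rA L x) - fb L k c 0 (rB L x)

/-- Even two-centre barriers (`s = 1` supersolution, `s = -1` subsolution). -/
def T_Beven : Prop := ∃ A : ℝ, 0 < A ∧ ∀ᶠ r0 : ℝ in atTop, ∃ C : ℝ, 1 ≤ C ∧
  ∀ᶠ L : ℝ in atTop, ∀ k ∈ Icc (4 / 5 : ℝ) (6 / 5), ∀ s : ℝ, s = 1 ∨ s = -1 →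
    ∃ g l, C2 (D L) (Ye L k (s * A)) g l ∧ ∀ x ∈ Ext2 L r0,
      3 / min (rA L x) (rB L x) ^ 2 * Ye L k (s * A) x ≤
        s * (-(1 / 2) * l x + (V L x + k ^ 2 / 2) * Ye L k (s * A) x) ∧
      Ye L k (s * A) x ≤ C * Ye L k 0 x ∧ Ye L k 0 x ≤ C * Ye L k (s * A) x ∧
      |g x 2| ≤ 2 * (|x 2| + L) / min (rA L x) (rB L x) * Ye L k (s * A) x ∧
      (min (rA L x) (rB L x) ≤ r0 + 1 → 1 ≤ C * Ye L k 0 x ∧ Ye L k 0 x ≤ C)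

/-- Odd two-centre barriers with a capacity for sources. -/
def T_Bodd : Prop := ∀ᶠ r0 : ℝ in atTop, ∃ C : ℝ, 1 ≤ C ∧ ∀ᶠ L : ℝ in atTop, ∃ τ : ℝ, 0 < τ ∧
  ∀ k ∈ Icc (4 / 5 : ℝ) (6 / 5), ∀ c ∈ Icc (9 / 10 : ℝ) 1, ∀ s : ℝ, s = 1 ∨ s = -1 →
    ∃ U g l, C2 (D L) U g l ∧ ∀ x ∈ Ext2 L r0, 0 ≤ x 2 →
      (∀ P : ℝ, |P - (1 - c) / (rA L x + L)| ≤ 1 / rA L x ^ 2 →
        τ * (1 + ‖x‖) ^ (-(5 / 2) : ℝ) * fb L k c 0 (rA L x) ≤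
          s * (-(1 / 2) * l x + (V L x + k ^ 2 / 2 + P) * U x)) ∧
      0 ≤ Uo L k c x ∧ U x ≤ C * Uo L k c x ∧ Uo L k c x ≤ C * U x ∧
      (rA L x ≤ r0 + 1 → 1 ≤ C * Uo L k c x ∧ Uo L k c x ≤ C)

/-- Comparison with radial functions far away. -/
def T_Bfar : Prop := ∃ C : ℝ, 1 ≤ C ∧ ∀ L : ℝ, 1 ≤ L → ∀ᶠ ρ : ℝ in atTop,
  ∀ k ∈ Icc (4 / 5 : ℝ) (6 / 5), ∀ c ∈ Icc (9 / 10 : ℝ) 1, ∀ x : E3, ρ ≤ ‖x‖ →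
    (0 ≤ x 2 → L * x 2 / ‖x‖ * fb L k c 0 ‖x‖ ≤ C * Uo L k c x ∧
      Uo L k c x ≤ C * (L * x 2 / ‖x‖ * fb L k c 0 ‖x‖ * Real.exp (4 * L * x 2 / ‖x‖)) ∧
      fb L k c 0 ‖x‖ ≤ C * fb L k c 0 (rA L x)) ∧
    fb L k 1 0 ‖x‖ ≤ C * Ye L k 0 x ∧
    Ye L k 0 x ≤ C * (fb L k 1 0 ‖x‖ * Real.exp (4 * L * |x 2| / ‖x‖))

/-- Radial supersolution with the exact decay rate and the screened charge. -/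
def T_Brad : Prop := ∀ L : ℝ, 1 ≤ L → ∀ᶠ ρ : ℝ in atTop,
  ∀ k ∈ Icc (4 / 5 : ℝ) (6 / 5), ∀ c ∈ Icc (9 / 10 : ℝ) 1,
    ∃ g l, C2 {0}ᶜ (fun x => fb L k c 1 ‖x‖) g l ∧ ∀ x : E3, ρ ≤ ‖x‖ →
      0 ≤ -(1 / 2) * l x + (V L x + k ^ 2 / 2 + (1 - c) / (min (rA L x) (rB L x) + L) -
        1 / min (rA L x) (rB L x) ^ 2) * fb L k c 1 ‖x‖ ∧
      fb L k c 1 ‖x‖ ≤ fb L k c 0 ‖x‖ ∧ fb L k c 0 ‖x‖ ≤ 30 * fb L k c 1 ‖x‖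

/-! ### one-body data -/

structure OB (c0 L : ℝ) where
  g : E3 → ℝ
  u : E3 → ℝ
  gg : E3 → E3
  gu : E3 → E3
  eg : ℝ
  eu : ℝ
  hg : H1 g gg
  hu : H1 u gu
  ng : ∫ x, g x ^ 2 = 1
  nu : ∫ x, u x ^ 2 = 1
  evg : ∀ x, g (sg x) = g x
  odu : ∀ x, u (sg x) = -u x
  cg : ContinuousOn g (D L)
  cu : ContinuousOn u (D L)
  pg : ∀ x ∈ D L, 0 < g x
  pu : ∀ x ∈ D L, 0 < x 2 → 0 < u x
  eqg : ∀ f gf, H1 f gf → q1 L g gg f gf = eg * ∫ x, g x * f x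
  equ : ∀ f gf, H1 f gf → q1 L u gu f gf = eu * ∫ x, u x * f x
  lt : eg < eu
  gap : ∀ f gf, H1 f gf → (-1 / 2 + c0) * (∫ x, f x ^ 2) -
    (-1 / 2 + c0 - eg) * (∫ x, g x * f x) ^ 2 - (-1 / 2 + c0 - eu) * (∫ x, u x * f x) ^ 2 ≤
      q1 L f gf f gf

def OB.del {c0 L : ℝ} (ob : OB c0 L) : ℝ := ob.eu - ob.eg

/-- Bounds with a constant `C` independent of `L`. -/
structure OBb {c0 L : ℝ} (ob : OB c0 L) (C r0 ω : ℝ) : Prop where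
  sg : |ob.eg + 1 / 2| ≤ ω
  su : |ob.eu + 1 / 2| ≤ ω
  shell : ∀ x, r0 ≤ rA L x → rA L x ≤ r0 + 1 →
    1 ≤ C * ob.g x ∧ ob.g x ≤ C ∧ 1 ≤ C * ob.u x ∧ ob.u x ≤ C
  two : ∀ x ∈ Ext2 L r0, Ye L √(-2 * ob.eg) 0 x ≤ C * ob.g x ∧
    ob.g x ≤ C * Ye L √(-2 * ob.eg) 0 x
  mom : Integrable (fun x => x 2 ^ 2 * ob.g x ^ 2) ∧ ∫ x, x 2 ^ 2 * ob.g x ^ 2 ≤ (C * L) ^ 2
  dip : L ≤ C * ∫ x, x 2 * ob.g x * ob.u x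

def T_OB : Prop := ∃ c0 : ℝ, 0 < c0 ∧ c0 ≤ 1 / 8 ∧ ∀ᶠ r0 : ℝ in atTop, ∃ C : ℝ, 1 ≤ C ∧
  ∀ ω : ℝ, 0 < ω → ∀ᶠ L : ℝ in atTop, ∃ ob : OB c0 L, OBb ob C r0 ω

/-! ### many-body variational data -/

def Finf {c0 L : ℝ} (ob : OB c0 L) (w : E9) : ℝ :=
  (ob.u w.1 * ob.g w.2.1 - ob.g w.1 * ob.u w.2.1) * ob.g w.2.2 / √2

def Pinf {c0 L : ℝ} (ob : OB c0 L) (w : E6) : ℝ := ob.g w.1 * ob.g w.2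

def Sinf {c0 L : ℝ} (ob : OB c0 L) (w : E6) : ℝ :=
  (ob.g w.1 * ob.u w.2 + ob.u w.1 * ob.g w.2) / √2

def Tinf {c0 L : ℝ} (ob : OB c0 L) (w : E6) : ℝ :=
  (ob.g w.1 * ob.u w.2 - ob.u w.1 * ob.g w.2) / √2

def rho6 (w : E6) : ℝ := ‖w.1‖ + ‖w.2‖

/-- The part of `Mx x` that is odd in `x`. -/
def Mo (x : E3) (w : E6) : ℝ := (Mx x w - Mx (sg x) w) / 2

/-- A normalized eigenstate of the ion with decay and multipole bounds. -/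
structure Ion (L lam C1 : ℝ) (a : O2) (Ea : ℝ) : Prop where
  one : ip2 a a = 1
  eq : ∀ b : O2, q2 L lam a b = Ea * ip2 a b
  wt : Integrable (fun w => Real.exp (rho6 w / 5) * a.f w ^ 2) ∧
    ∫ w, Real.exp (rho6 w / 5) * a.f w ^ 2 ≤ C1
  m1 : ∀ x : E3, MemLp (fun w => Mx x w * a.f w) 2 volume ∧
    √(∫ w, ((Mx x w - 2 / (1 + ‖x‖)) * a.f w) ^ 2) ≤ C1 / (1 + ‖x‖) ^ 2
  m2 : ∀ x : E3, C1 ≤ ‖x‖ → √(∫ w, (Mo x w * a.f w) ^ 2) ≤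
    C1 * (|x 2| / ‖x‖ ^ 3 + Real.exp (-‖x‖ / 20))

structure MB {c0 L : ℝ} (ob : OB c0 L) (lam C C1 : ℝ) where
  F : O3
  P : O2
  S : O2
  T : O2
  E : ℝ
  E0 : ℝ
  ES : ℝ
  ET : ℝ
  Dp : ℝ
  nF : ip3 F F = 1
  aF : ∀ w, F.f (p12 w) = -F.f w
  oF : ∀ w, F.f (sg9 w) = -F.f w
  eqF : ∀ b : O3, q3 L lam F b = E * ip3 F b
  minF : ∀ b : O3, (∀ᵐ w : E9, b.f (p12 w) = -b.f w) → E * ip3 b b ≤ q3 L lam b b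
  iP : Ion L lam C1 P E0
  iS : Ion L lam C1 S ES
  iT : Ion L lam C1 T ET
  sP : ∀ w, P.f w.swap = P.f w ∧ P.f (sg6 w) = P.f w
  sS : ∀ w, S.f w.swap = S.f w ∧ S.f (sg6 w) = -S.f w
  sT : ∀ w, T.f w.swap = -T.f w ∧ T.f (sg6 w) = -T.f w
  en : |E - (2 * ob.eg + ob.eu)| ≤ C1 * lam ∧ |E0 - 2 * ob.eg| ≤ C1 * lam ∧
    |ES - (ob.eg + ob.eu)| ≤ C1 * lam ∧ |ET - (ob.eg + ob.eu)| ≤ C1 * lam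
  cF : ∫ w, (F.f w - Finf ob w) ^ 2 ≤ C1 * lam
  cP : ∫ w, (P.f w - Pinf ob w) ^ 2 ≤ C1 * lam
  cS : ∫ w, (S.f w - Sinf ob w) ^ 2 ≤ C1 * lam
  cT : ∫ w, (T.f w - Tinf ob w) ^ 2 ≤ C1 * lam
  lowP : ∀ b : O2, E0 * ip2 b b ≤ q2 L lam b b
  gapP : ∀ b : O2, ip2 P b = 0 → (ob.eg + ob.eu) * ip2 b b ≤ q2 L lam b b
  lowT : ∀ b : O2, (∀ᵐ w : E6, b.f w.swap = -b.f w) → ET * ip2 b b ≤ q2 L lam b b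
  kin : ∀ b : O2, k2 b / 4 - C * ip2 b b ≤ q2 L lam b b
  loc : ∀ b : O2, (E0 + 1 / 4) * ip2 b b - C1 * ∫ w in {w | rho6 w ≤ C1}, b.f w ^ 2 ≤
    q2 L lam b b
  dip : L ≤ C * Dp
  m2P : ∀ x : E3, C1 ≤ ‖x‖ → √(∫ w, (Mo x w * P.f w) ^ 2) ≤
    C * L * |x 2| / ‖x‖ ^ 3 + C1 * Real.exp (-‖x‖ / 20)
  m3 : ∀ x : E3, C1 ≤ ‖x‖ → |(∫ w, S.f w * Mx x w * P.f w) - Dp * x 2 / ‖x‖ ^ 3| ≤
    C1 * (|x 2| / ‖x‖ ^ 4 + Real.exp (-‖x‖ / 20))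

def T_MB : Prop := ∀ c0 : ℝ, 0 < c0 → c0 ≤ 1 / 8 → ∀ r0 C : ℝ, 1 ≤ C → ∃ C' : ℝ, 1 ≤ C' ∧
  ∀ᶠ ω in 𝓝[>] (0 : ℝ), ∀ᶠ L : ℝ in atTop, ∀ ob : OB c0 L, OBb ob C r0 ω →
    ∃ C1 : ℝ, 1 ≤ C1 ∧ ∀ᶠ lam in 𝓝[>] (0 : ℝ), Nonempty (MB ob lam C' C1)

/-! ### the density -/

/-- An admissible splitting of the density `N ^ 2`. -/
structure Pair (N Φ Ω : E3 → ℝ) (gΦ gΩ : E3 → E3) : Prop where
  h1 : H1 Φ gΦ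
  h2 : H1 Ω gΩ
  ev : ∀ᵐ x : E3, Φ (sg x) = Φ x
  od : ∀ᵐ x : E3, Ω (sg x) = -Ω x
  sum : ∀ᵐ x : E3, Φ x ^ 2 + Ω x ^ 2 = N x ^ 2

def eta (lam : ℝ) : ℝ := lam ^ (1 / 16 : ℝ)

/-- Basic facts on `N = √n`. -/
structure NB {c0 L : ℝ} (ob : OB c0 L) (r1 ε η I : ℝ) (N : E3 → ℝ) (gN : E3 → E3) : Prop where
  hI : |I + ob.eu| ≤ ε
  h : H1 N gN
  nn : ∀ x, 0 ≤ N x
  ev : ∀ x, N (sg x) = N x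
  mass : ∫ x, N x ^ 2 = 3
  lb : LocB (D L) N
  lp : LocP (D L) N
  sub : SubQ (D L) N gN (fun x => (V L x + I) * N x ^ 2)
  comp : ∃ Φ Ω gΦ gΩ, Pair N Φ Ω gΦ gΩ ∧ |(∫ x, Φ x ^ 2) - 2| ≤ η ^ 4 ∧
    (1 / 2) * (∫ x, ‖gΦ x‖ ^ 2) + (1 / 2) * (∫ x, ‖gΩ x‖ ^ 2) + ∫ x, V L x * N x ^ 2 ≤
      2 * ob.eg + ob.eu + η ^ 4
  close : ∀ᵐ x : E3, x ∈ Blk L (3 * r1) ε → |N x - √(2 * ob.g x ^ 2 + ob.u x ^ 2)| ≤ ε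

def bb (L lam I r : ℝ) : ℝ := L / r * fb L √(2 * I) (1 - 2 * lam) 0 r

def RS (L lam I δ r : ℝ) : ℝ := lam * L * bb L lam I r / (δ ^ 2 * r ^ 3)

def RT (L lam I δ r : ℝ) : ℝ := fb L (√(2 * (I + δ)) + eta lam) 1 0 r

def aa (L lam I δ r : ℝ) : ℝ := RT L lam I δ r + RS L lam I δ r

/-- The upper even barrier is comparable to `RT` for `r ≤ 1 / η` and negligible beyond. -/
def T_Bcmp : Prop := ∀ L : ℝ, 1 ≤ L → ∀ δ : ℝ, 0 < δ → δ ≤ 1 / 10 →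
  ∀ᶠ lam in 𝓝[>] (0 : ℝ), ∀ I ∈ Icc (2 / 5 : ℝ) (3 / 5), ∀ r : ℝ, 1 ≤ r →
    (r ≤ 1 / eta lam → fb L (√(2 * (I + δ)) - 2 * eta lam) 1 0 r ≤ 100 * RT L lam I δ r) ∧
    (1 / eta lam ≤ r → fb L (√(2 * (I + δ)) - 2 * eta lam) 1 0 r ≤ eta lam * RS L lam I δ r ∧
      RT L lam I δ r ≤ eta lam * RS L lam I δ r)

/-- All barrier statements. -/
def T_B : Prop := T_Beven ∧ T_Bodd ∧ T_Bfar ∧ T_Brad ∧ T_Bcmp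

/-- Screening potential. -/
def P0 (L lam : ℝ) (x : E3) : ℝ :=
  2 * lam / (min (rA L x) (rB L x) + L) - 1 / min (rA L x) (rB L x) ^ 2

/-- Far-field structure of the density: `N ^ 2 = d ^ 2 + q`. -/
structure FB (L δ lam r1 C I : ℝ) (N : E3 → ℝ) (gN : E3 → E3) where
  d : E3 → ℝ
  gd : E3 → E3
  q : E3 → ℝ
  gq : E3 → E3
  ee : E3 → ℝ
  scr : SubQ (Ext r1) N gN (fun x => (V L x + I + P0 L lam x) * N x ^ 2)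
  ld : L1 (Ext r1) d gd
  sum : ∀ᵐ x : E3, N x ^ 2 = d x ^ 2 + q x
  nn : ∀ᵐ x : E3, 0 ≤ q x ∧ 0 ≤ ee x ∧ ‖gq x‖ ^ 2 ≤ 4 * q x * ee x
  lee : Loc1 (Ext r1) ee
  sN : Sub (Ext r1) (fun x => -Real.log (N x)) (fun x => -(N x)⁻¹ • gN x)
    (fun x => ‖gN x‖ ^ 2 / (2 * N x ^ 2) -
      (C + ‖gd x‖ ^ 2 * q x / N x ^ 4 + 2 * ee x / N x ^ 2))
  sq : Sub (Ext r1) q gq (fun x => ee x - C * N x ^ 2)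
  sd : Sub (Ext r1) (fun x => d x ^ 2) (fun x => (2 * d x) • gd x)
    (fun x => ‖gd x‖ ^ 2 - C * N x ^ 2)
  slab : ∀ᵐ x : E3, x ∈ Slab r1 → x 2 * bb L lam I ‖x‖ ≤ C * d x ∧
    d x ≤ C * (x 2 * bb L lam I ‖x‖) ∧
    q x ≤ C * (aa L lam I δ ‖x‖ ^ 2 + lam / ‖x‖ ^ 2 * (x 2 * bb L lam I ‖x‖) ^ 2) ∧
    aa L lam I δ ‖x‖ ≤ C * N x
  low : ∀ᵐ x : E3, x ∈ Ext r1 → 0 < x 2 → Uo L √(2 * I) (1 - 2 * lam) x ≤ C * N x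

def T_FB : Prop := ∀ c0 : ℝ, 0 < c0 → c0 ≤ 1 / 8 → ∀ᶠ r0 : ℝ in atTop, ∀ C C2 : ℝ, 1 ≤ C →
  1 ≤ C2 → ∃ C' : ℝ, 1 ≤ C' ∧ ∀ᶠ ω in 𝓝[>] (0 : ℝ), ∀ᶠ L : ℝ in atTop, ∀ ob : OB c0 L, OBb ob C r0 ω →
    ∀ C1 : ℝ, 1 ≤ C1 → ∀ᶠ r1 : ℝ in atTop, ∀ ε : ℝ, 0 < ε → ∀ᶠ lam in 𝓝[>] (0 : ℝ),
      ∀ mb : MB ob lam C2 C1, ∃ gN, NB ob r1 ε (eta lam) (mb.E0 - mb.E) (N3 mb.F.f) gN ∧
        Nonempty (FB L ob.del lam r1 C' (mb.E0 - mb.E) (N3 mb.F.f) gN)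

/-- An upper barrier on the far upper half space for the potential `c`. -/
structure XB (r1 : ℝ) (g N c B : E3 → ℝ) : Prop where
  c2 : ∃ U gB l, C2 U B gB l ∧ U ⊆ Ext r1 ∧ (∀ x ∈ Ext r1, 0 ≤ x 2 → x ∈ U) ∧
    ∀ x ∈ Ext r1, 0 < x 2 → 0 ≤ -(1 / 2) * l x + c x * B x
  nn : ∀ x ∈ Ext r1, 0 ≤ x 2 → 0 ≤ B x
  anchor : ∀ x ∈ Ext r1, ‖x‖ < r1 + 1 → 0 < x 2 → 3 * g x ≤ B x
  plane : ∀ K, IsCompact K → K ⊆ Ext r1 → ∃ M, ∀ᵐ x : E3, x ∈ K → 0 < x 2 → x 2 < 1 →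
    2 * N x ≤ B x + M * x 2

/-- Abstract far-field data used in the analysis of the restricted problem. -/
structure ND (L δ η r1 C I : ℝ) (g N : E3 → ℝ) (gN : E3 → E3) where
  Vf : E3 → ℝ
  φ : ℝ → ℝ
  φ1 : ℝ → ℝ
  φ2 : ℝ → ℝ
  Us : Set E3
  Λ : E3 → ℝ
  gΛ : E3 → E3
  B1 : E3 → ℝ
  B2 : E3 → ℝ
  B3 : E3 → ℝ
  χ : E3 → ℝ
  scr : SubQ (Ext r1) N gN (fun x => Vf x * N x ^ 2)
  mVf : Measurable Vf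
  bVf : ∀ x ∈ Ext r1, 1 / 5 ≤ Vf x ∧ Vf x ≤ 1
  dφ : ∀ r, r1 / 2 < r → HasDerivAt φ (φ1 r) r ∧ HasDerivAt φ1 (φ2 r) r
  cφ : ContinuousOn φ2 (Ioi (r1 / 2))
  tame : ∀ r, r1 ≤ r → |φ1 r + √(2 * I)| ≤ 1 / 100 ∧ |φ2 r| ≤ 1 / 100
  lim : Tendsto φ1 atTop (𝓝 (-√(2 * I)))
  low : ∀ᵐ x : E3, x ∈ Slab r1 → Real.exp (φ ‖x‖) ≤ C * N x
  anc : ∀ x ∈ Slab r1, ‖x‖ < r1 + 1 → Real.exp (φ ‖x‖) ≤ C * g x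
  oUs : IsOpen Us ∧ Us ⊆ Ext r1 ∧ ∀ x ∈ Ext r1, 0 ≤ x 2 → x 2 < 1 → x ∈ Us
  lΛ : L1 Us Λ gΛ
  bΛ : ∀ᵐ x : E3, x ∈ Slab r1 → |Λ x| ≤ C
  iΛ : ∀ ψ p, Tst Us ψ p → (∀ᵐ x : E3, 0 ≤ ψ x) → (∀ x, x 2 < 0 → ψ x = 0 ∧ p x = 0) →
    ∫ x, ((1 / 2) * ⟪gΛ x - (N x)⁻¹ • gN x, p x⟫ + (‖gN x‖ ^ 2 / (2 * N x ^ 2) - C) * ψ x) ≤ 0
  x1 : XB r1 g N Vf B1
  s1 : ∀ᵐ x : E3, x ∈ Ext r1 → 1 ≤ x 2 → 10 * B1 x ≤ N x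
  x2 : XB r1 g N (fun x => Vf x + if 1 ≤ x 2 then δ / 2 else 0) B2
  s2 : ∀ᵐ x : E3, x ∈ Ext r1 → 1 ≤ x 2 → B2 x ≤ χ x * N x ∧ 0 ≤ χ x
  x3 : XB r1 g N (fun x => Vf x + if 1 ≤ x 2 then (δ - η) * max (1 - χ x ^ 2) 0 else 0) B3
  s3 : ∀ x ∈ Slab r1, B3 x ≤ C * Real.exp (φ ‖x‖)
  f3 : ∀ S : ℝ, ∀ᶠ ρ : ℝ in atTop, ∀ x : E3, ρ ≤ ‖x‖ → 0 < x 2 → x 2 ≤ S →
    B3 x ≤ C * Real.exp (φ ‖x‖)
  g3 : ∀ s S τ : ℝ, 0 < s → 0 < τ → ∀ᶠ ρ : ℝ in atTop, ∀ᵐ x : E3, ρ ≤ ‖x‖ → s ≤ x 2 →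
    x 2 ≤ S → B3 x ≤ τ * N x

def T_ND : Prop := ∀ c0 : ℝ, 0 < c0 → c0 ≤ 1 / 8 → ∀ᶠ r0 : ℝ in atTop, ∀ C C2 : ℝ, 1 ≤ C →
  1 ≤ C2 → ∃ C' : ℝ, 1 ≤ C' ∧ ∀ᶠ ω in 𝓝[>] (0 : ℝ), ∀ᶠ L : ℝ in atTop, ∀ ob : OB c0 L, OBb ob C r0 ω →
    ∀ᶠ r1 : ℝ in atTop, ∀ᶠ ε in 𝓝[>] (0 : ℝ), ∀ᶠ lam in 𝓝[>] (0 : ℝ), ∀ I N gN,
      NB ob r1 ε (eta lam) I N gN → Nonempty (FB L ob.del lam r1 C2 I N gN) →
        Nonempty (ND L ob.del (eta lam) r1 C' I ob.g N gN)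

/-- What is proved about the density. -/
structure Out (N : E3 → ℝ) where
  Φ : E3 → ℝ
  Ω : E3 → ℝ
  gΦ : E3 → E3
  gΩ : E3 → E3
  pair : Pair N Φ Ω gΦ gΩ
  m1 : ∫ x, Φ x ^ 2 = 2
  m2 : ∫ x, Ω x ^ 2 = 1
  key : ∀ (Y : Type) [MeasurableSpace Y] (ν : Measure Y) [SFinite ν] (G : E3 × Y → ℝ)
    (GG : E3 × Y → E3), HV ν G GG → (∀ᵐ x : E3, ∫ y, G (x, y) ^ 2 ∂ν = N x ^ 2) →
    (∀ f : E3 → ℝ, MemLp f 2 volume →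
      ∫ y, (∫ x, f x * G (x, y)) ^ 2 ∂ν ≤ 2 * ∫ x, f x ^ 2) →
    (∫ x, ‖gΦ x‖ ^ 2) + (∫ x, ‖gΩ x‖ ^ 2) ≤ ∫ w, ‖GG w‖ ^ 2 ∂(volume.prod ν)
  nov : ∀ v₁ v₂ : E3 → ℝ, MemLp v₁ (3 / 2) volume → MemLp v₂ ⊤ volume → ∀ μ : ℝ,
    ¬∀ f gf, H1 f gf →
      ∫ x, ((1 / 2) * ⟪gΦ x, gf x⟫ + (v₁ x + v₂ x) * Φ x * f x) = μ * ∫ x, Φ x * f x

def T_Th : Prop := ∀ c0 : ℝ, 0 < c0 → c0 ≤ 1 / 8 → ∀ r0 C C2 : ℝ, 1 ≤ C → 1 ≤ C2 →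
  ∀ᶠ ω in 𝓝[>] (0 : ℝ), ∀ᶠ L : ℝ in atTop, ∀ ob : OB c0 L, OBb ob C r0 ω →
    ∀ᶠ r1 : ℝ in atTop, ∀ᶠ ε in 𝓝[>] (0 : ℝ), ∀ η, 0 < η → η ≤ ε → ∀ I N gN,
      NB ob r1 ε η I N gN → Nonempty (ND L ob.del η r1 C2 I ob.g N gN) → Nonempty (Out N)

/-- The analytic core. -/
def T_Core : Prop := ∃ L : ℝ, 0 < L ∧ ∀ᶠ lam in 𝓝[>] (0 : ℝ), ∃ (F : O3) (E : ℝ),
  ip3 F F = 1 ∧ (∀ w, F.f (p12 w) = -F.f w) ∧ q3 L lam F F = E ∧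
  (∀ b : O3, (∀ᵐ w : E9, b.f (p12 w) = -b.f w) → E * ip3 b b ≤ q3 L lam b b) ∧
  Nonempty (Out (N3 F.f))

/-- The final statement. -/
def T_Main : Prop := ∃ (Z : Fin 2 → ℕ) (R : Fin 2 → E3), (∀ j, 1 ≤ Z j) ∧ Function.Injective R ∧
  ∃ Ψ : State 3, IsGround (coulomb Z R) Ψ ∧ ¬Representable 2 Ψ.rho

end

end Vale.Agent.P363
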