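import Vale.Agent.P363.MVc1

/-! P363, block MV: the competitor pair. -/

open MeasureTheory Set Metric Filter Topology
open scoped RealInnerProductSpace

namespace Vale.Agent.P363

noncomputable section

theorem mvk_join {α : Type} [NormedAddCommGroup α] {a b : E9 → α} (ha : MemLp a 2 volume)
    (hb : MemLp b 2 volume) :
    (∀ᵐ x : E3, ∫ y : Bool × E6, ‖if y.1 then a (x, y.2) else b (x, y.2)‖ ^ 2
      ∂(Measure.count.prod volume) = (∫ y, ‖a (x, y)‖ ^ 2) + ∫ y, ‖b (x, y)‖ ^ 2) ∧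
    ∫ w : E3 × (Bool × E6), ‖if w.2.1 then a (w.1, w.2.2) else b (w.1, w.2.2)‖ ^ 2
      ∂(volume.prod (Measure.count.prod volume)) = (∫ w, ‖a w‖ ^ 2) + ∫ w, ‖b w‖ ^ 2 := by
  obtain ⟨a1, a2, a3⟩ := ae_slice2 (ν := volume) ha
  obtain ⟨b1, b2, b3⟩ := ae_slice2 (ν := volume) hb
  obtain ⟨-, -, c3⟩ := ae_slice2 (CVec1Aux.join (ν := volume) ha hb)
  have key : ∀ᵐ x : E3, ∫ y : Bool × E6, ‖if y.1 then a (x, y.2) else b (x, y.2)‖ ^ 2
      ∂(Measure.count.prod volume) = (∫ y, ‖a (x, y)‖ ^ 2) + ∫ y, ‖b (x, y)‖ ^ 2 := by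
    filter_upwards [a1, b1] with x h1 h2
    rw [← (integral_join ((memLp_two_iff_integrable_sq_norm h1.1).1 h1)
      ((memLp_two_iff_integrable_sq_norm h2.1).1 h2)).2]
    refine integral_congr_ae (Eventually.of_forall fun y => ?_)
    exact apply_ite (fun v : α => ‖v‖ ^ 2) _ _ _
  refine ⟨key, ?_⟩
  rw [← c3, integral_congr_ae key, integral_add a2 b2, a3, b3]
  rfl

theorem mvk_evp {f : E9 → ℝ} (hf : MemLp f 2 volume) :
    MemLp (evp f) 2 volume ∧ ∫ w, evp f w ^ 2 ≤ ∫ w, f w ^ 2 := by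
  have h1 : MemLp (fun w : E9 => f (sg w.1, w.2)) 2 volume := hf.comp_measurePreserving mvg1_mp
  have h2 : MemLp (evp f) 2 volume := (hf.add h1).mul_const 2⁻¹
  refine ⟨h2, ?_⟩
  have h3 := integral_mono h2.integrable_sq ((hf.integrable_sq.add h1.integrable_sq).div_const 2)
    fun w => show evp f w ^ 2 ≤ (f w ^ 2 + f (sg w.1, w.2) ^ 2) / 2 by
      unfold evp
      nlinarith [sq_nonneg (f w - f (sg w.1, w.2))]
  simp only [Pi.add_apply] at h3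
  rw [integral_div, integral_add hf.integrable_sq h1.integrable_sq,
    mvg1_refl fun w => f w ^ 2] at h3
  linarith

theorem mvk_mass {f f0 : E9 → ℝ} (hf : MemLp f 2 volume) (h0 : MemLp f0 2 volume) {t : ℝ}
    (ht : 0 ≤ t) (hd : ∫ w, (f w - f0 w) ^ 2 ≤ t ^ 2) (h1 : ∫ w, evp f0 w ^ 2 = 1) :
    |(∫ w, evp f w ^ 2) - 1| ≤ t * (2 + t) := by
  have h2 := (tri_integral (mvk_evp hf).1 (mvk_evp h0).1).2
  have h3 : ∫ w, (evp f w - evp f0 w) ^ 2 ≤ t ^ 2 := by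
    refine le_trans (le_of_eq ?_) ((mvk_evp (hf.sub h0)).2.trans hd)
    refine integral_congr_ae (Eventually.of_forall fun w => ?_)
    simp only [evp, Pi.sub_apply]
    ring
  rw [h1, Real.sqrt_one] at h2
  have h4 := abs_le.1 (h2.trans (Real.sqrt_le_iff.2 ⟨ht, h3⟩))
  have h5 := Real.sq_sqrt (integral_nonneg fun w => sq_nonneg (evp f w) : 0 ≤ ∫ w, evp f w ^ 2)
  have h6 := Real.sqrt_nonneg (∫ w, evp f w ^ 2)
  rw [← h5]
  generalize √(∫ w, evp f w ^ 2) = s at h4 h6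
  rw [abs_le]
  constructor <;> nlinarith [h4.1, h4.2, sq_nonneg (s - 1)]

theorem mvk_V (a : O3) (L : ℝ) : Integrable (fun x => V L x * sip a.f a.f x) ∧
    ∫ x, V L x * sip a.f a.f x = ∫ w, V L w.1 * a.f w * a.f w := by
  have h := sip_int (CO3x.memV a L).1 a.l2.1
  have e : sip (fun w : E9 => V L w.1 * a.f w) a.f = fun x => V L x * sip a.f a.f x := by
    funext x
    simp only [sip, mul_assoc]
    exact integral_const_mul _ _
  rwa [e] at h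

theorem mvk_prod {g : E3 → ℝ} {T : E6 → ℝ} (hg : ∫ x, g x ^ 2 = 1) (hT : ∫ y, T y ^ 2 = 1) :
    ∫ w : E9, (g w.1 * T w.2) ^ 2 = 1 := by
  have h := integral_prod_mul (μ := (volume : Measure E3)) (ν := (volume : Measure E6))
    (fun x => g x ^ 2) fun y => T y ^ 2
  rw [hg, hT, mul_one] at h
  simp only [mul_pow]
  exact h

variable {c0 L lam C C1 : ℝ} {ob : OB c0 L} (mb : MB ob lam C C1)

theorem mvk_massA {t : ℝ} (ht : 0 ≤ t) (h : 2 * (C1 * lam) ≤ t ^ 2) :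
    |(∫ w, evp mb.A.f w ^ 2) - 1| ≤ t * (2 + t) := by
  refine mvk_mass mb.A.l2.1 (ob.Fi.l2.1.const_mul √2) ht ?_ ?_
  · refine le_trans (le_of_eq ?_) ((mul_le_mul_of_nonneg_left mb.cF zero_le_two).trans h)
    rw [← integral_const_mul]
    refine integral_congr_ae (Eventually.of_forall fun w => ?_)
    show (√2 * mb.F.f w - √2 * ob.Fi.f w) ^ 2 = _
    rw [(ob.Fi_eq w).1, ← mul_sub, mul_pow, Real.sq_sqrt zero_le_two]
  · rw [← mvk_prod ob.ng ob.norms.2.2.1]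
    refine integral_congr_ae (Eventually.of_forall fun w => ?_)
    simp only [evp, (ob.Fi_eq _).2.2.2, ob.evg, ob.odu]
    ring

theorem mvk_massB {t : ℝ} (ht : 0 ≤ t) (h : C1 * lam ≤ t ^ 2) :
    |(∫ w, evp mb.B.f w ^ 2) - 1| ≤ t * (2 + t) := by
  refine mvk_mass mb.B.l2.1 ob.Bi.l2.1 ht ?_ ?_
  · refine le_trans (le_of_eq ?_) (mb.cF.trans h)
    rw [← integral_p13 fun w => (mb.F.f w - Finf ob w) ^ 2]
    refine integral_congr_ae (Eventually.of_forall fun w => ?_)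
    simp only [(ob.Fi_eq w).2.1]
    rfl
  · rw [← mvk_prod ob.ng ob.norms.2.1]
    refine integral_congr_ae (Eventually.of_forall fun w => ?_)
    simp only [evp, (ob.Fi_eq _).2.2.1, ob.evg]
    ring

theorem mvk_kin : (∫ w, ‖mb.A.g1 w‖ ^ 2) + ∫ w, ‖mb.B.g1 w‖ ^ 2 =
    (∫ w, ‖mb.F.g1 w‖ ^ 2) + (∫ w, ‖mb.F.g2 w‖ ^ 2) + ∫ w, ‖mb.F.g3 w‖ ^ 2 := by
  have h1 : ∫ w, ‖mb.A.g1 w‖ ^ 2 = 2 * ∫ w, ‖mb.F.g1 w‖ ^ 2 := by
    rw [← integral_const_mul]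
    refine integral_congr_ae (Eventually.of_forall fun w => ?_)
    show ‖√2 • mb.F.g1 w‖ ^ 2 = _
    rw [norm_smul, mul_pow, Real.norm_eq_abs, sq_abs, Real.sq_sqrt zero_le_two]
  have h2 : ∫ w, ‖mb.B.g1 w‖ ^ 2 = ∫ w, ‖mb.F.g3 w‖ ^ 2 :=
    integral_p13 fun w => ‖mb.F.g3 w‖ ^ 2
  have h3 : ∫ w, ‖mb.F.g2 w‖ ^ 2 = ∫ w, ‖mb.F.g1 w‖ ^ 2 := by
    rw [← integral_p12 fun w => ‖mb.F.g2 w‖ ^ 2]
    refine integral_congr_ae ?_
    filter_upwards [(mb.F.cmul (-1)).h.unique mb.F.h.perm12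
      (Eventually.of_forall fun w => (mb.aF w).trans (neg_one_mul _).symm)] with w hw
    rw [hw.1]
    show ‖(-1 : ℝ) • mb.F.g1 w‖ ^ 2 = _
    rw [neg_one_smul, norm_neg]
  rw [h1, h2, h3]
  ring

theorem mvk_pot : ∫ x, V L x * mb.N x ^ 2 = (∫ w : E9, V L w.1 * mb.F.f w * mb.F.f w) +
    (∫ w : E9, V L w.2.1 * mb.F.f w * mb.F.f w) + ∫ w : E9, V L w.2.2 * mb.F.f w * mb.F.f w := by
  have h1 : ∫ w : E9, V L w.1 * mb.A.f w * mb.A.f w =
      2 * ∫ w : E9, V L w.1 * mb.F.f w * mb.F.f w := by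
    rw [← integral_const_mul]
    refine integral_congr_ae (Eventually.of_forall fun w => ?_)
    show V L w.1 * (√2 * mb.F.f w) * (√2 * mb.F.f w) = 2 * (V L w.1 * mb.F.f w * mb.F.f w)
    linear_combination (V L w.1 * mb.F.f w * mb.F.f w) * Real.mul_self_sqrt zero_le_two
  have h2 : ∫ w : E9, V L w.1 * mb.B.f w * mb.B.f w =
      ∫ w : E9, V L w.2.2 * mb.F.f w * mb.F.f w :=
    integral_p13 fun w => V L w.2.2 * mb.F.f w * mb.F.f w
  have h3 : ∫ w : E9, V L w.2.1 * mb.F.f w * mb.F.f w =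
      ∫ w : E9, V L w.1 * mb.F.f w * mb.F.f w := by
    rw [← integral_p12 fun w => V L w.2.1 * mb.F.f w * mb.F.f w]
    refine integral_congr_ae (Eventually.of_forall fun w => ?_)
    show V L w.1 * mb.F.f (p12 w) * mb.F.f (p12 w) = _
    rw [mb.aF]
    ring
  simp only [(mb.sq_eq _).2.2.2.1, mul_add]
  rw [integral_add (mvk_V mb.A L).1 (mvk_V mb.B L).1, (mvk_V mb.A L).2, (mvk_V mb.B L).2, h1, h2,
    h3]
  ring

theorem mvk_en (hl : 0 ≤ lam) :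
    (1 / 2) * ((∫ w, ‖mb.A.g1 w‖ ^ 2) + ∫ w, ‖mb.B.g1 w‖ ^ 2) + ∫ x, V L x * mb.N x ^ 2 ≤ mb.E := by
  obtain ⟨l0, l1, l2, l3⟩ := mb.F.l2
  obtain ⟨v1, v2, v3⟩ := CO3x.memV mb.F L
  have k1 := CO3x.int_nsq l1
  have k2 := CO3x.int_nsq l2
  have k3 := CO3x.int_nsq l3
  have p1 := cabs_mul v1 l0
  have p2 := cabs_mul v2 l0
  have p3 := cabs_mul v3 l0
  have k12 : Integrable fun w => ‖mb.F.g1 w‖ ^ 2 + ‖mb.F.g2 w‖ ^ 2 := k1.add k2
  have k123 : Integrable fun w => ‖mb.F.g1 w‖ ^ 2 + ‖mb.F.g2 w‖ ^ 2 + ‖mb.F.g3 w‖ ^ 2 := k12.add k3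
  have p12' : Integrable fun w : E9 => V L w.1 * mb.F.f w * mb.F.f w +
    V L w.2.1 * mb.F.f w * mb.F.f w := p1.add p2
  have p123 : Integrable fun w : E9 => V L w.1 * mb.F.f w * mb.F.f w +
    V L w.2.1 * mb.F.f w * mb.F.f w + V L w.2.2 * mb.F.f w * mb.F.f w := p12'.add p3
  have hE := mb.eqF mb.F
  rw [mb.nF, mul_one] at hE
  rw [mvk_kin, mvk_pot, ← hE, ← integral_add k1 k2, ← integral_add k12 k3, ← integral_add p1 p2,
    ← integral_add p12' p3, ← integral_const_mul, ← integral_add (k123.const_mul _) p123]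
  refine integral_mono ((k123.const_mul _).add p123) (CO3x.intq mb.F mb.F L lam) fun w => ?_
  simp only [real_inner_self_eq_norm_sq, W3, W2, Mx]
  have : 0 ≤ lam * (‖w.2.1 - w.2.2‖⁻¹ + (‖w.1 - w.2.1‖⁻¹ + ‖w.1 - w.2.2‖⁻¹)) *
      (mb.F.f w * mb.F.f w) := mul_nonneg (by positivity) (mul_self_nonneg _)
  nlinarith

theorem mvk_small {lam C1 : ℝ} (hl : 0 < lam) (hC : 1 ≤ C1) (h : (72 * C1) ^ 2 * lam ≤ 1) :
    0 ≤ eta lam ^ 4 ∧ eta lam ^ 4 ≤ 1 ∧ 2 * (C1 * lam) ≤ (eta lam ^ 4 / 6) ^ 2 := by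
  have h0 : 0 ≤ eta lam ^ 4 := by positivity
  have h1 : (eta lam ^ 4) ^ 4 = lam := by
    rw [← pow_mul, eta, ← Real.rpow_natCast, ← Real.rpow_mul hl.le]
    norm_num
  generalize eta lam ^ 4 = q at h0 h1
  subst h1
  have h2 : 72 * C1 * q ^ 2 ≤ 1 := by
    refine (pow_le_one_iff_of_nonneg (by positivity) two_ne_zero).1 (le_trans (le_of_eq ?_) h)
    ring
  have h3 : q ^ 2 ≤ 1 := by nlinarith [sq_nonneg q]
  refine ⟨h0, (pow_le_one_iff_of_nonneg h0 two_ne_zero).1 h3, ?_⟩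
  nlinarith [mul_le_mul_of_nonneg_right h2 (sq_nonneg q)]

omit mb in
theorem comp_pair {c0 L C C1 C3 : ℝ} (ob : OB c0 L) :
    ∀ᶠ lam in 𝓝[>] (0 : ℝ), ∀ mb : MB ob lam C C1, Sl ob lam C C1 C3 →
      ∃ Φ Ω gΦ gΩ, Pair mb.N Φ Ω gΦ gΩ ∧ |(∫ x, Φ x ^ 2) - 2| ≤ eta lam ^ 4 ∧
        (1 / 2) * (∫ x, ‖gΦ x‖ ^ 2) + (1 / 2) * (∫ x, ‖gΩ x‖ ^ 2) + ∫ x, V L x * mb.N x ^ 2 ≤
          2 * ob.eg + ob.eu + eta lam ^ 4 := by
  have hev : ∀ᶠ lam in 𝓝 (0 : ℝ), (72 * C1) ^ 2 * lam ≤ 1 :=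
    (ContinuousAt.eventually_lt (f := fun lam : ℝ => (72 * C1) ^ 2 * lam) (by fun_prop)
      continuousAt_const (by simp)).mono fun _ h => h.le
  filter_upwards [hev.filter_mono nhdsWithin_le_nhds] with lam hlam mb hs
  obtain ⟨q0, q1, q2⟩ := mvk_small hs.l0 hs.hC1 hlam
  have hCl : 0 ≤ C1 * lam := mul_nonneg (by linarith [hs.hC1]) hs.l0.le
  have hJ := HV.join (ν := volume) mb.A.h.h1 mb.B.h.h1
  obtain ⟨Ω, gΩ, hp, -, -, hΩ⟩ := pair_of_HV hJ (N := mb.N) (by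
    filter_upwards [(mvk_join mb.A.l2.1 mb.B.l2.1).1] with x hx
    simp only [Real.norm_eq_abs, sq_abs] at hx
    rw [(mb.sq_eq x).2.2.2.1]
    simp only [sip, ← sq]
    exact hx) fun x => (mb.N_ev x).1
  obtain ⟨-, n1, n2⟩ := hJ.evp.nrm
  refine ⟨_, Ω, _, gΩ, hp, ?_, ?_⟩
  · have h1 := (mvk_join (mvk_evp mb.A.l2.1).1 (mvk_evp mb.B.l2.1).1).2
    simp only [Real.norm_eq_abs, sq_abs] at h1
    have a := abs_le.1 (mvk_massA mb (by positivity) q2)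
    have b := abs_le.1 (mvk_massB mb (t := eta lam ^ 4 / 6) (by positivity) (by linarith))
    have e := n1.trans ((integral_congr_ae (Eventually.of_forall fun w => by
      simp only [evp]
      split_ifs <;> rfl)).trans h1)
    rw [e, abs_le]
    constructor <;> nlinarith [a.1, a.2, b.1, b.2]
  · have h1 := ev_od_energy hJ
    rw [(mvk_join mb.A.l2.2.1 mb.B.l2.2.1).2] at h1
    have h2 := mvk_en mb hs.l0.le
    have h3 := (abs_le.1 mb.en.1).2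
    nlinarith

end

end Vale.Agent.P363
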